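import Vale.Agent.P143.Bdl.B1

namespace Vale.Agent.Results.P143.Fusf

open Vale.Agent.P143 MeasureTheory SimpleGraph unitInterval

universe u

/-- The free uniform spanning forest is a factor of IID on every Cayley graph, on every
unimodular random graph, and in fact by one universal isomorphism-invariant Borel rule on
every infinite connected locally finite graph. -/
theorem result :
    (∀ (Γ : Type u) [Group Γ] (S : Set Γ), S.Finite → Subgroup.closure S = ⊤ →
      ∃ μ : Measure ((mulCayley S).edgeSet → Bool),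
        IsFUSF (mulCayley S) μ ∧ IsGroupFactor S μ) ∧
    (∀ ρ : Measure (SimpleGraph ℕ × ℕ), IsUnimodular ρ →
      ∃ Φ : SimpleGraph ℕ → (ℕ → I) → Sym2 ℕ → Bool, IsGraphRule Φ ∧
        ∀ᵐ p ∂ρ, IsFUSF p.1 (ruleLaw Φ p.1)) ∧
    ∃ Φ : SimpleGraph ℕ → (ℕ → I) → Sym2 ℕ → Bool, IsGraphRule Φ ∧
      ∀ G : SimpleGraph ℕ, G.Connected → (∀ v, (G.neighborSet v).Finite) →
        IsFUSF G (ruleLaw Φ G) :=
  ⟨fun _ _ S hS hcl => cayley_part S hS hcl, fun ρ hρ => unimodular_part ρ hρ, rule_part⟩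

end Vale.Agent.Results.P143.Fusf
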